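import Crest.Agent.X212.Hp13.Map
import Crest.Agent.X212.Nt64.Abs

/-!
# Row 212, RF-NT (helper64): regularity after a perturbation of one row (job level)
-/

set_option autoImplicit false
set_option linter.unusedSectionVars false
noncomputable section
open scoped Manifold ContDiff Topology InnerProductSpace
open MeasureTheory Set Function Filter

namespace Crest.Agent.X212.Nta64
open An M Nd18 Mod61 Nk89 Cht98 Rf65 Pte3 Nt66 Sob92 Hp13.Rt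

section abs
variable {X Y H P : Type} [NormedAddCommGroup X] [NormedSpace ℝ X] [CompleteSpace X]
  [NormedAddCommGroup Y] [NormedSpace ℝ Y] [CompleteSpace Y] [NormedAddCommGroup H]
  [NormedSpace ℝ H] [CompleteSpace H] [AddCommGroup P] [Module ℝ P]

theorem nt1 (L : X →L[ℝ] Y) (ι : H →L[ℝ] Y) (π : Y →L[ℝ] H) (hπ : ∀ v, π (ι v) = v)
    (D : P →ₗ[ℝ] X →L[ℝ] Y) (K : Submodule ℝ P) (pr : H →ₗ[ℝ] Fin 2 → ℝ)
    (k : (Fin 2 → ℝ) →ₗ[ℝ] X) (h1 : ∀ y, ∃ z v, L z + ι v = y)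
    (h2 : ∀ v, pr v = 0 → ∃ z, L z = ι v ∧ ∀ p ∈ K, D p z = 0) (h3 : ∀ a, ∃ v, L (k a) = ι v)
    (h4 : ∀ p ∈ K, ∀ a, ∃ v, D p (k a) = ι v)
    (h5 : ∀ a ≠ 0, ∀ χ ≠ 0, ∃ p ∈ K, ∃ v, D p (k a) = ι v ∧ χ ⬝ᵥ pr v ≠ 0) :
    ∃ p ∈ K, ∀ᶠ ε in 𝓝[≠] (0 : ℝ), ∀ y, ∃ z, L z + D (ε • p) z = y := by
  have e : ∀ {y}, (∃ v, y = ι v) → y = ι (π y) := fun ⟨v, e⟩ => by rw [e, hπ]
  let B : K →ₗ[ℝ] (Fin 2 → ℝ) →ₗ[ℝ] H := LinearMap.mk₂ ℝ (fun p a => π (D p (k a)))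
    (fun _ _ _ => by simp) (fun _ _ _ => by simp) (fun _ _ _ => by simp) fun _ _ _ => by simp
  obtain ⟨p, hp⟩ := Nt64.nt0' X Y H K L ι (D ∘ₗ K.subtype) pr k (π.toLinearMap ∘ₗ L.toLinearMap ∘ₗ k) B
    (fun y => let ⟨z, v, e⟩ := h1 y; ⟨(z, v), e⟩) (fun v hv => (h2 v hv).imp fun z h => ⟨h.1, fun p => h.2 p p.2⟩) (fun a => e (h3 a))
    (fun p a => e (h4 p p.2 a)) fun a ha χ hχ =>
      let ⟨p, m, v, e1, e2⟩ := h5 a ha χ hχ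
      ⟨⟨p, m⟩, by rwa [show B ⟨p, m⟩ a = v from (congrArg π e1).trans (hπ v)]⟩
  exact ⟨p, p.2, hp.mono fun ε k y => (k y).imp fun z e => by rwa [map_smul]⟩

omit [CompleteSpace Y] [CompleteSpace H] in
theorem sub0 (ι : H →L[ℝ] Y) (π : Y →L[ℝ] H) (hπ : ∀ v, π (ι v) = v) {f g : ℝ → Y} {a d : Y}
    (hf : HasDerivAt f a 0) (hg : HasDerivAt g (a + d) 0) {u : ℝ → H} (e : ∀ s, g s = f s - ι (u s)) :
    ∃ v, d = ι v := by
  have k := hg.sub hf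
  rw [add_sub_cancel_left] at k
  exact ⟨_, k.unique (((ι ∘L π).hasFDerivAt.comp_hasDerivAt _ k).congr_of_eventuallyEq
    (.of_forall fun s => by simp [e, hπ]))⟩

theorem cv_seq {W : Type} (q p : W →₀ ℝ) {Z : ℝ → Prop} (h : ∀ᶠ ε in 𝓝[≠] (0 : ℝ), Z ε) :
    ∃ t : ℕ → ℝ, St.Cv atTop (fun k => q + t k • p) q ∧ ∀ᶠ k in atTop, Z (t k) := by
  have l : Tendsto (fun k : ℕ => 1 / ((k : ℝ) + 1)) atTop (𝓝 0) := tendsto_one_div_add_atTop_nhds_zero_nat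
  refine ⟨_, ⟨p.support, fun k w hw => by simp [Finsupp.notMem_support_iff.1 hw], fun w => ?_⟩,
    (tendsto_nhdsWithin_iff.2 ⟨l, .of_forall fun k => Nat.one_div_pos_of_nat.ne'⟩).eventually h⟩
  simpa using (l.mul_const (p w)).const_add (q w)

end abs

section hs
variable {Z : Mf 4} {ι V T : Type} [Fintype ι] [NormedAddCommGroup V] [InnerProductSpace ℝ V]
  [CompleteSpace V] {F : Fr Z.I Z.M ι} {S : ℝ} (hS : Sup F.toPre S) {k : ℕ} (hk : 4 ≤ k)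
  {P : Z.M → CL V V} [AddCommGroup T] [Module ℝ T] (a : T →ₗ[ℝ] Z.M → V)
  (ha : ∀ t, a t ∈ Mod61.Hs F.toPre P)

/-- a linear family of smooth fields -/
def oL : T →ₗ[ℝ] F.H k P where
  toFun t := ofV F.toPre k P (a t)
  map_add' s t := ofV_eq hS hk (by rw [val_add, val_ofV (ha s) hk, val_ofV (ha t) hk, map_add])
  map_smul' s t := ofV_eq hS hk (by rw [RingHom.id_apply, val_smul, val_ofV (ha t) hk, map_smul])

end hs

variable {Wi : Type} {X : Mf 4} {A κ lam : Type} [Fintype A] [Fintype κ] [Fintype lam]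
  [DecidableEq lam] {M : Mark X A κ} {W : World M} {N : ML M lam} {Λ : Lns W N}
  {A' h : Type} [Fintype A'] [DecidableEq A'] [Fintype h] {r n : ℕ}
  {J : Job Wi Λ A' h r n} {c : M.Cl} {σ : Cel A'} {p : Prt A A' h} {U : Type} [Fintype U] {δ : ℝ}
  {b : Bp J c} {E : EC b p U δ} (H : CS σ E) (x : Pnt E.o r) (ψ : E.K) {q q' : Wi →₀ ℝ}
  {f g : E.C → E.Y} {s : A' → ℝ}

variable (E) in
/-- the row of the cut `i` -/
def pT (i : p.H) : E.Y →L[ℝ] (J.cut c i).H (J.B c) E.o.m :=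
  .proj (R := ℝ) (φ := fun i : p.H => (J.cut c i).H (J.B c) E.o.m) i ∘L .fst ℝ _ _ ∘L .snd ℝ _ _

theorem pT_tg [DecidableEq p.H] (i : p.H) (v) : pT E i (tg E i v) = v :=
  Pi.single_eq_same (M := fun i : p.H => (J.cut c i).H (J.B c) E.o.m) i v

/-- the perturbations of the row of `l` that vanish at `x` -/
def Pl (s : A' → ℝ) (l : h) : Submodule ℝ (Wi →₀ ℝ) where
  carrier := {q | Nt66.Cl J s l q ∧ sg s l q x = 0}
  zero_mem' := ⟨fun _ k => absurd k (Finset.notMem_empty _), rfl⟩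
  add_mem' := by
    classical
    intro _ _ h1 h2
    refine ⟨fun w k => (Finset.mem_union.1 (Finsupp.support_add k)).elim (h1.1 w) (h2.1 w), ?_⟩
    have a := h1.2
    have a' := h2.2
    unfold sg at a a' ⊢
    rw [Abx52.σc_add, a, a']
    exact add_zero _
  smul_mem' t _ h1 := ⟨Cl_smul h1.1 t, by
    have a := h1.2
    unfold sg at a ⊢
    rw [σc_smul, a]
    exact smul_zero t⟩

include H

variable [DecidableEq p.H] {i : p.H}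

theorem eq_tg {e : E.Y} (h1 : (b.F p U δ).F0.val 8 E.o.Pm e.1.1 = 0)
    (h2 : (b.F p U δ).F0.val 8 E.o.P2 e.1.2.1 = 0) (h3 : e.1.2.2 = 0)
    (h4 : ∀ j : p.H, j.1 ≠ i → e.2.1 j = 0) (h5 : e.2.2 = 0) : e = tg E i (e.2.1 i) := by
  refine Prod.ext (Y_ext H.F (by norm_num) (h1.trans val_zero.symm) (h2.trans val_zero.symm) h3)
    (Prod.ext (funext fun j => ?_) h5)
  by_cases k : j = i
  · subst k; exact (pT_tg j _).symm
  · exact (h4 j fun e => k (Subtype.ext e)).trans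
      (Pi.single_eq_of_ne (M := fun i : p.H => (J.cut c i).H (J.B c) E.o.m) k _).symm

theorem fd_one (hf : E.Map q f) {η} (h0 : ⟪ψ i, η⟫_ℝ = 0) :
    fderiv ℝ f (x.pt 8, ψ) (0, Pi.single i η) = tg E i (E.row q x i η) :=
  (derK H x ψ hf _).trans (Prod.ext rfl (Prod.ext (funext fun j => by
    by_cases e : j = i
    · subst e; simp [tg_apply]
    · simp [tg_apply, e]) (funext fun j => by
    by_cases e : j = i
    · subst e; simp [tg_apply, h0]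
    · simp [tg_apply, e])))

section pert
variable (hf : E.Map q f) (hg : E.Map (q + q') g) {D : E.C →L[ℝ] E.Y}
  (hD : ∀ v, fderiv ℝ g (x.pt 8, ψ) v = fderiv ℝ f (x.pt 8, ψ) v + D v)
include hf hg hD

theorem d_K (m : sg (b.θ p U x.t) i.1 q' x = 0) {η} (h0 : ⟪ψ i, η⟫_ℝ = 0) :
    D (0, Pi.single i η) = 0 :=
  have e : E.row (q + q') x i = E.row q x i := by rw [row_add, m, sub_zero]
  left_eq_add.1 (((fd_one H x ψ hf h0).trans (congrArg (fun T => tg E i (T η)) e.symm)).trans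
    ((fd_one H x ψ hg h0).symm.trans (hD _)))

variable {α : (W.Z c).M → Fm (Option κ) E.o.m.A} (hα : α ∈ Mod61.Hs (b.F p U δ).F0.toPre E.o.P1)
  (m : Nt66.Cl J (b.θ p U x.t) i.1 q') (m' : sg (b.θ p U x.t) i.1 q' x = 0)
include hα m

theorem d_A : ∃ v, D ((ofV _ 9 _ α, 0, 0), 0) = tg E i v := by
  have d := der_ln0 H.F x hα (zero_mem _) hf.sm ψ
  have d' := der_ln0 H.F x hα (zero_mem _) hg.sm ψ
  rw [ofV_zero H.F.sup (by norm_num)] at d d'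
  exact sub0 (Y := E.Y) (u := fun u => sg (b.θ p U x.t) i.1 q' (ln x hα (zero_mem _) u) (ψ i))
    (tg E i) (pT E i) (pT_tg i) d (d'.congr_deriv (hD _)) fun u =>
      sub_eq H (ln x hα (zero_mem _) u) ψ hf hg i m

include m' in
theorem d_T {T} (hT : HasDerivAt (fun u => sg (b.θ p U x.t) i.1 q' (ln x hα (zero_mem _) u)) T 0) :
    D ((ofV _ 9 _ α, 0, 0), 0) = tg E i (-T (ψ i)) :=
  (add_left_cancel ((hD _).symm.trans ((derP H x ψ hf hg i rfl m hα m' hT 0).trans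
    (sub_eq_add_neg _ _)))).trans (map_neg _ _).symm

end pert

theorem ex_k (a : (Fin 2 → ℝ) →ₗ[ℝ] (W.Z c).M → Fm (Option κ) E.o.m.A)
    (ha : ∀ t, a t ∈ Mod61.Hs (b.F p U δ).F0.toPre E.o.P1) :
    ∃ k : (Fin 2 → ℝ) →ₗ[ℝ] E.C, ∀ t, k t = ((ofV _ 9 _ (a t), 0, 0), 0) :=
  ⟨.inl ℝ _ _ ∘ₗ .inl ℝ _ _ ∘ₗ oL H.F.sup (k := 9) (by norm_num) a ha, fun _ => rfl⟩

theorem core0 (F : (Wi →₀ ℝ) → E.C → E.Y) (hF : ∀ q, E.Map q (F q))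
    (D : (Wi →₀ ℝ) →ₗ[ℝ] E.C →L[ℝ] E.Y) (hD : ∀ q' v, fderiv ℝ (F (q + q')) (x.pt 8, ψ) v =
      fderiv ℝ (F q) (x.pt 8, ψ) v + D q' v)
    (h1 : ∀ y, ∃ z v, fderiv ℝ (F q) (x.pt 8, ψ) z + tg E i v = y)
    (pr : (J.cut c i).H (J.B c) E.o.m →ₗ[ℝ] Fin 2 → ℝ)
    (p1 : ∀ v, pr v = 0 → ∃ η, ⟪ψ i, η⟫_ℝ = 0 ∧ E.row q x i η = v)
    (a : (Fin 2 → ℝ) →ₗ[ℝ] (W.Z c).M → Fm (Option κ) E.o.m.A)
    (ha : ∀ t, a t ∈ Mod61.Hs (b.F p U δ).F0.toPre E.o.P1)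
    (k : (Fin 2 → ℝ) →ₗ[ℝ] E.C) (ek : ∀ t, k t = ((ofV _ 9 _ (a t), 0, 0), 0))
    (h3 : ∀ t, ∃ v, fderiv ℝ (F q) (x.pt 8, ψ) ((ofV _ 9 _ (a t), 0, 0), 0) = tg E i v)
    (h5 : ∀ t ≠ 0, ∀ χ ≠ 0, ∃ q' T, Nt66.Cl J (b.θ p U x.t) i.1 q' ∧ sg (b.θ p U x.t) i.1 q' x = 0 ∧
      HasDerivAt (fun u => sg (b.θ p U x.t) i.1 q' (ln x (ha t) (zero_mem _) u)) T 0 ∧
      χ ⬝ᵥ pr (T (ψ i)) ≠ 0) :
    ∃ q' ∈ Pl x (b.θ p U x.t) i.1, ∀ᶠ ε in 𝓝[≠] (0 : ℝ),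
      ∀ y, ∃ z, fderiv ℝ (F q) (x.pt 8, ψ) z + D (ε • q') z = y :=
  nt1 (X := E.C) (Y := E.Y) (fderiv ℝ (F q) (x.pt 8, ψ)) (tg E i) (pT E i)
    (pT_tg i) D (Pl x (b.θ p U x.t) i.1) pr k h1
    (fun v hv => (p1 v hv).elim fun η k => ⟨(0, Pi.single i η),
      (fd_one H x ψ (hF q) k.1).trans (congrArg _ k.2),
      fun q' m => d_K H x ψ (hF q) (hF _) (hD q') m.2 k.1⟩)
    (fun t => (h3 t).imp fun _ e => (congrArg _ (ek t)).trans e)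
    (fun q' m t => (d_A H x ψ (hF q) (hF _) (hD q') (ha t) m.1).imp fun _ e =>
      (congrArg _ (ek t)).trans e) fun t ht χ hχ =>
      (h5 t ht χ hχ).elim fun q' k => k.elim fun T k => ⟨q', ⟨k.1, k.2.1⟩, -T (ψ i),
        (congrArg _ (ek t)).trans (d_T H x ψ (hF q) (hF _) (hD q') (ha t) k.1 k.2.1 k.2.2.1), by
          rw [map_neg, dotProduct_neg, neg_ne_zero]; exact k.2.2.2⟩

omit [DecidableEq p.H] in
/-- the maps are affine in the perturbation -/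
theorem aff : ∃ (F : (Wi →₀ ℝ) → E.C → E.Y) (D : (Wi →₀ ℝ) →ₗ[ℝ] E.C →L[ℝ] E.Y),
    (∀ q, E.Map q (F q)) ∧ ∀ q q' v, fderiv ℝ (F (q + q')) (x.pt 8, ψ) v =
      fderiv ℝ (F q) (x.pt 8, ψ) v + D q' v := by
  have h := Hp13.Mp.map J c δ σ p U b E x ψ H
  refine h.2.elim fun D hD => ?_
  have k := h.1
  choose F hF using k
  exact ⟨F, D, hF, fun q q' v =>
    (DFunLike.congr_fun (hD q q' _ _ (hF _) (hF _)) v).trans (add_apply _ _ _)⟩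

/-- **regularity after a perturbation of the row `i`** -/
theorem core (hθ : b.θ p U x.t = s)
    (h1 : ∀ f, E.Map q f → Surjective ((fderiv ℝ f (x.pt 8, ψ)).coprod (tg E i)))
    (pr : (J.cut c i).H (J.B c) E.o.m →ₗ[ℝ] Fin 2 → ℝ)
    (p1 : ∀ v, pr v = 0 → ∃ η, ⟪ψ i, η⟫_ℝ = 0 ∧ E.row q x i η = v)
    (a : (Fin 2 → ℝ) →ₗ[ℝ] (W.Z c).M → Fm (Option κ) E.o.m.A)
    (ha : ∀ t, a t ∈ Mod61.Hs (b.F p U δ).F0.toPre E.o.P1)
    (h3 : ∀ f, E.Map q f → ∀ t, ∃ v, fderiv ℝ f (x.pt 8, ψ) ((ofV _ 9 _ (a t), 0, 0), 0) = tg E i v)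
    (h5 : ∀ t ≠ 0, ∀ χ ≠ 0, ∃ q' T, Nt66.Cl J s i.1 q' ∧ sg s i.1 q' x = 0 ∧
      HasDerivAt (fun u => sg s i.1 q' (ln x (ha t) (zero_mem _) u)) T 0 ∧ χ ⬝ᵥ pr (T (ψ i)) ≠ 0) :
    ∃ q' ∈ Pl x s i.1, ∀ᶠ ε in 𝓝[≠] (0 : ℝ), E.Reg (q + ε • q') x ψ := by
  subst hθ
  exact (aff H x ψ).elim fun F k => k.elim fun D k => (ex_k H a ha).elim fun l ek =>
    (core0 H x ψ F k.1 D (k.2 q) (fun y => (h1 _ (k.1 q) y).elim fun w e =>
      ⟨w.1, w.2, (ContinuousLinearMap.coprod_apply _ _ w).symm.trans e⟩) pr p1 a ha l ek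
      (h3 _ (k.1 q)) h5).imp fun q' e => ⟨e.1, e.2.mono fun ε e => ⟨_, k.1 _, fun y =>
        (e y).imp fun z e => (k.2 q _ z).trans e⟩⟩

end Crest.Agent.X212.Nta64
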